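import Crest.Agent.R086.L.Defs

/-!
# Row 86, part L: the weighted Wiener algebra
-/

set_option autoImplicit false

open Crest.AnalysisR.PDE.NLS
open scoped ComplexConjugate

namespace Crest.Agent.R086.L

theorem Alg_conv {K : Type*} [NormedRing K] [CompleteSpace K] {f g : Z12 → K}
    (hf : Summable fun ξ => ‖f ξ‖) (hg : Summable fun ξ => ‖g ξ‖) :
    (Summable fun p : Z12 × Z12 => f p.2 * g (p.1 - p.2)) ∧
      ∑' ξ, ∑' η, f η * g (ξ - η) = (∑' ξ, f ξ) * ∑' ξ, g ξ := by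
  let e : Z12 × Z12 ≃ Z12 × Z12 :=
    ⟨fun p => (p.2, p.1 - p.2), fun p => (p.1 + p.2, p.1), fun p => by simp, fun p => by simp⟩
  have h1 : Summable fun p : Z12 × Z12 => f p.2 * g (p.1 - p.2) :=
    e.summable_iff.2 (summable_mul_of_summable_norm hf hg)
  refine ⟨h1, ?_⟩
  rw [tsum_mul_tsum_of_summable_norm hf hg, ← e.tsum_eq]
  exact h1.tsum_prod.symm

/-- `mul b c ξ = ω ξ * ∑' η, (b η / ω η) * (c (ξ - η) / ω (ξ - η))`;
`‖mul b c ξ‖ ≤ ∑' η, ‖b η‖ ‖c (ξ - η)‖`; reindex `ℤ¹² × ℤ¹²` by `(ξ, η) ↦ (η, ξ - η)`. -/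
theorem exists_mul (h : ℝ) {ω : Z12 → ℝ} (hω : Wt ω) :
    ∃ mul : E → E → E, (∀ b c, ‖mul b c‖ ≤ ‖b‖ * ‖c‖) ∧
      (∀ b b' c, mul (b - b') c = mul b c - mul b' c) ∧
      (∀ b c c', mul b (c - c') = mul b c - mul b c') ∧
      ∀ b c y, ev h ω (mul b c) y = ev h ω b y * ev h ω c y := by
  have hω' : ∀ ξ, (ω ξ : ℂ) ≠ 0 := fun ξ => Complex.ofReal_ne_zero.2 (hω.pos ξ).ne'
  let T : E → E → Z12 → Z12 → ℂ := fun b c ξ η => ω ξ * (b η / ω η * (c (ξ - η) / ω (ξ - η)))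
  have hT : ∀ b c ξ η, ‖T b c ξ η‖ ≤ ‖b η‖ * ‖c (ξ - η)‖ := fun b c ξ η => by
    have h1 := hω.add_le η (ξ - η)
    have h2 := hω.pos η
    have h3 := hω.pos (ξ - η)
    rw [add_sub_cancel] at h1
    simp only [T, norm_mul, norm_div, Complex.norm_real, Real.norm_of_nonneg (hω.pos _).le]
    calc _ ≤ ω η * ω (ξ - η) * (‖b η‖ / ω η * (‖c (ξ - η)‖ / ω (ξ - η))) := by gcongr
      _ = _ := by field_simp
  have S := fun b c : E => Alg_conv (f := fun ξ => ‖b ξ‖) (g := fun ξ => ‖c ξ‖)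
    (by simpa using summable_norm b) (by simpa using summable_norm c)
  have s1 : ∀ b c ξ, Summable (T b c ξ) := fun b c ξ =>
    .of_norm_bounded ((S b c).1.prod_factor ξ) (hT b c ξ)
  have s2 : ∀ b c ξ, ‖∑' η, T b c ξ η‖ ≤ ∑' η, ‖b η‖ * ‖c (ξ - η)‖ := fun b c ξ =>
    tsum_of_norm_bounded ((S b c).1.prod_factor ξ).hasSum (hT b c ξ)
  have s3 : ∀ b c, Summable fun ξ => ‖∑' η, T b c ξ η‖ := fun b c =>
    .of_nonneg_of_le (fun _ => norm_nonneg _) (s2 b c) (S b c).1.prod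
  refine ⟨fun b c => ⟨fun ξ => ∑' η, T b c ξ η, mem_of_summable (s3 b c)⟩, fun b c => ?_,
    fun b b' c => lp.ext (funext fun ξ => ?_), fun b c c' => lp.ext (funext fun ξ => ?_),
    fun b c y => ?_⟩
  · rw [norm_eq, norm_eq, norm_eq, ← (S b c).2]
    exact (s3 b c).tsum_le_tsum (s2 b c) (S b c).1.prod
  · refine Eq.trans (tsum_congr fun η => ?_) ((s1 b c ξ).tsum_sub (s1 b' c ξ))
    simp only [T, lp.coeFn_sub, Pi.sub_apply]
    ring
  · refine Eq.trans (tsum_congr fun η => ?_) ((s1 b c ξ).tsum_sub (s1 b c' ξ))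
    simp only [T, lp.coeFn_sub, Pi.sub_apply]
    ring
  · rw [ev, ev, ev, ← (Alg_conv (hω.summable_term h b y) (hω.summable_term h c y)).2]
    refine tsum_congr fun ξ => ?_
    change (∑' η, T b c ξ η) / ω ξ * ch h ξ y = _
    rw [← tsum_div_const, ← tsum_mul_right]
    refine tsum_congr fun η => ?_
    have := ch_add h η (ξ - η) y
    rw [add_sub_cancel] at this
    simp only [T, this]
    rw [mul_div_cancel_left₀ _ (hω' ξ)]
    ring

/-- `cj b ξ = conj (b (-ξ))`. -/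
theorem exists_cj (h : ℝ) {ω : Z12 → ℝ} (hω : Wt ω) :
    ∃ cj : E → E, (∀ b, ‖cj b‖ ≤ ‖b‖) ∧ (∀ b c, cj (b - c) = cj b - cj c) ∧
      ∀ b y, ev h ω (cj b) y = conj (ev h ω b y) := by
  have s : ∀ b : E, Summable fun ξ => ‖conj (b (-ξ))‖ := fun b => by
    simp only [Complex.norm_conj]
    exact (Equiv.neg Z12).summable_iff.2 (summable_norm b)
  refine ⟨fun b => ⟨fun ξ => conj (b (-ξ)), mem_of_summable (s b)⟩, fun b => ?_,
    fun b c => lp.ext (funext fun ξ => ?_), fun b y => ?_⟩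
  · rw [norm_eq, norm_eq, ← (Equiv.neg Z12).tsum_eq fun ξ => ‖b ξ‖]
    exact (tsum_congr fun ξ => Complex.norm_conj _).le
  · exact map_sub conj (b (-ξ)) (c (-ξ))
  · rw [ev, ev, Complex.conj_tsum, ← (Equiv.neg Z12).tsum_eq]
    refine tsum_congr fun ξ => ?_
    change conj (b (- -ξ)) / ω (-ξ) * ch h (-ξ) y = _
    rw [neg_neg, hω.neg, ch_neg, map_mul, map_div₀, Complex.conj_ofReal]

/-- `N 0 b = b`, `N (n+1) b = mul (mul b (cj b)) (N n b)`; induction on `n`. -/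
theorem exists_NL (h : ℝ) {ω : Z12 → ℝ} (hω : Wt ω) (n : ℕ) :
    ∃ N : E → E, (∀ b y, ev h ω (N b) y = NL n (ev h ω b y)) ∧
      ∀ R : ℝ, 0 ≤ R → (∀ b, ‖b‖ ≤ R → ‖N b‖ ≤ R ^ (2 * n + 1)) ∧
        ∀ b c, ‖b‖ ≤ R → ‖c‖ ≤ R → ‖N b - N c‖ ≤ (2 * n + 1) * R ^ (2 * n) * ‖b - c‖ := by
  obtain ⟨mul, m1, m2, m3, m4⟩ := exists_mul h hω
  obtain ⟨cj, c1, c2, c3⟩ := exists_cj h hω
  induction n with
  | zero => exact ⟨id, fun b y => by simp [NL], fun R _ => ⟨by simp, by simp⟩⟩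
  | succ n ih =>
    obtain ⟨N, h1, h2⟩ := ih
    refine ⟨fun b => mul (mul b (cj b)) (N b), fun b y => ?_, fun R hR => ?_⟩
    · rw [m4, m4, c3, h1, NL, NL]
      ring
    obtain ⟨h2, h3⟩ := h2 R hR
    have q1 : ∀ b, ‖b‖ ≤ R → ‖mul b (cj b)‖ ≤ R * R := fun b hb =>
      (m1 _ _).trans (mul_le_mul hb ((c1 b).trans hb) (norm_nonneg _) hR)
    refine ⟨fun b hb => (m1 _ _).trans ?_, fun b c hb hc => ?_⟩
    · calc _ ≤ R * R * R ^ (2 * n + 1) :=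
            mul_le_mul (q1 b hb) (h2 b hb) (norm_nonneg _) (by positivity)
        _ = _ := by ring
    have q2 : ‖mul b (cj b) - mul c (cj c)‖ ≤ ‖b - c‖ * R + R * ‖b - c‖ := by
      rw [← sub_add_sub_cancel _ (mul c (cj b)), ← m2, ← m3, ← c2]
      exact norm_add_le_of_le ((m1 _ _).trans (by gcongr; exact (c1 b).trans hb))
        ((m1 _ _).trans (by gcongr; exact c1 _))
    rw [← sub_add_sub_cancel _ (mul (mul c (cj c)) (N b)), ← m2, ← m3]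
    calc _ ≤ (‖b - c‖ * R + R * ‖b - c‖) * R ^ (2 * n + 1) +
          R * R * ((2 * n + 1) * R ^ (2 * n) * ‖b - c‖) :=
          norm_add_le_of_le ((m1 _ _).trans (by gcongr; exact h2 b hb))
            ((m1 _ _).trans (mul_le_mul (q1 c hc) (h3 b c hb hc) (norm_nonneg _) (by positivity)))
      _ = _ := by push_cast; ring

end Crest.Agent.R086.L
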