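import Crest.Agent.R086.L.Defs

/-!
# Row 86, part L: the synthesis map
-/

set_option autoImplicit false

open Crest.AnalysisR.PDE.NLS
open scoped ContDiff

namespace Crest.Agent.R086.L

/-- the phase as a continuous linear form -/
noncomputable def evL (h : ℝ) (ξ : Z12) : R12 →L[ℝ] ℝ :=
  h • ∑ i, (ξ i : ℝ) • (EuclideanSpace.proj i : R12 →L[ℝ] ℝ)

theorem evL_apply (h : ℝ) (ξ : Z12) (y : R12) : evL h ξ y = h * ∑ i, (ξ i : ℝ) * y i := by
  simp [evL]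

theorem abs_evL_le (h : ℝ) (ξ : Z12) (y : R12) : |evL h ξ y| ≤ |h| * nz ξ * ‖y‖ := by
  rw [evL_apply, abs_mul, mul_assoc, nz, Finset.sum_mul]
  refine mul_le_mul_of_nonneg_left ((Finset.abs_sum_le_sum_abs _ _).trans
    (Finset.sum_le_sum fun i _ => ?_)) (abs_nonneg _)
  rw [abs_mul]
  exact mul_le_mul_of_nonneg_left (PiLp.norm_apply_le y i) (abs_nonneg _)

theorem ch_eq (h : ℝ) (ξ : Z12) :
    ch h ξ = (fun t : ℝ => Complex.exp (Complex.I * (t : ℂ))) ∘ evL h ξ := by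
  funext y
  rw [Function.comp_apply, evL_apply, ch]

theorem ev_contDiff_exp : ContDiff ℝ ∞ fun t : ℝ => Complex.exp (Complex.I * (t : ℂ)) :=
  (contDiff_const.mul Complex.ofRealCLM.contDiff).cexp

theorem ev_iteratedDeriv_exp (j : ℕ) :
    iteratedDeriv j (fun t : ℝ => Complex.exp (Complex.I * (t : ℂ))) =
      fun t : ℝ => Complex.I ^ j * Complex.exp (Complex.I * (t : ℂ)) := by
  induction j with
  | zero => simp
  | succ j ih =>
    funext t
    have h1 : HasDerivAt (fun t : ℝ => Complex.I * (t : ℂ)) Complex.I t := by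
      simpa using (Complex.ofRealCLM.hasDerivAt (x := t)).const_mul Complex.I
    rw [iteratedDeriv_succ, ih, (h1.cexp.const_mul _).deriv]
    ring

theorem iteratedFDeriv_ch (h : ℝ) (ξ : Z12) (j : ℕ) (y : R12) (m : Fin j → R12) :
    iteratedFDeriv ℝ j (ch h ξ) y m = (∏ i, evL h ξ (m i)) • (Complex.I ^ j * ch h ξ y) := by
  rw [ch_eq, (evL h ξ).iteratedFDeriv_comp_right ev_contDiff_exp y (by exact_mod_cast le_top),
    ContinuousMultilinearMap.compContinuousLinearMap_apply,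
    iteratedFDeriv_apply_eq_iteratedDeriv_mul_prod, ev_iteratedDeriv_exp]
  rfl

theorem contDiff_ch (h : ℝ) (ξ : Z12) : ContDiff ℝ ∞ (ch h ξ) := by
  rw [ch_eq]
  exact ev_contDiff_exp.comp (evL h ξ).contDiff

/-- `ch h ξ = cexp ∘ L` with `L : R12 →L[ℝ] ℂ`, `‖L‖ ≤ |h| nz ξ`; or induction on `j` from
`fderiv (ch h ξ) y = ch h ξ y • L`. -/
theorem norm_iteratedFDeriv_ch (h : ℝ) (ξ : Z12) (j : ℕ) (y : R12) :
    ‖iteratedFDeriv ℝ j (ch h ξ) y‖ ≤ (|h| * nz ξ) ^ j := by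
  have h0 : 0 ≤ |h| * nz ξ := mul_nonneg (abs_nonneg _) (nz_nonneg _)
  refine ContinuousMultilinearMap.opNorm_le_bound (pow_nonneg h0 _) fun m => ?_
  rw [iteratedFDeriv_ch, norm_smul, norm_mul, norm_pow, Complex.norm_I, one_pow, norm_ch, mul_one,
    mul_one, norm_prod]
  refine (Finset.prod_le_prod (fun _ _ => norm_nonneg _) fun i _ => abs_evL_le h ξ (m i)).trans_eq ?_
  rw [Finset.prod_mul_distrib, Finset.prod_const, Finset.card_univ, Fintype.card_fin]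

theorem lap_ch (h : ℝ) (ξ : Z12) (y : R12) :
    lap (ch h ξ) y = -((h ^ 2 * sq ξ : ℝ) : ℂ) * ch h ξ y := by
  have e : ∀ i, evL h ξ (ee i) = h * ξ i := fun i => by
    simp [evL_apply, ee, PiLp.single_apply]
  simp only [lap, iteratedFDeriv_ch, Fin.prod_univ_two, Matrix.cons_val_zero, Matrix.cons_val_one,
    e, Complex.I_sq, Complex.real_smul, sq, Finset.mul_sum, Complex.ofReal_sum, neg_mul,
    Finset.sum_mul, ← Finset.sum_neg_distrib]
  refine Finset.sum_congr rfl fun i _ => ?_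
  push_cast
  ring

theorem ev_term_eq (h : ℝ) (wt : Z12 → ℝ) (b : E) (ξ : Z12) (j : ℕ) (y : R12) :
    iteratedFDeriv ℝ j (fun y => b ξ / (wt ξ : ℂ) * ch h ξ y) y =
      (b ξ / (wt ξ : ℂ)) • iteratedFDeriv ℝ j (ch h ξ) y :=
  iteratedFDeriv_const_smul_apply' (a := b ξ / (wt ξ : ℂ))
    ((contDiff_ch h ξ).contDiffAt.of_le (by exact_mod_cast le_top))

theorem ev_bound (h : ℝ) {wt : Z12 → ℝ} (hwt : Wt wt) : ∃ C : ℕ → ℝ, (∀ j, 0 ≤ C j) ∧
    ∀ (b : E) (j : ℕ) (ξ : Z12) (y : R12),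
      ‖iteratedFDeriv ℝ j (fun y => b ξ / (wt ξ : ℂ) * ch h ξ y) y‖ ≤ C j * ‖b ξ‖ := by
  choose C hC hC' using hwt.grow
  refine ⟨fun j => |h| ^ j * C j, fun j => mul_nonneg (by positivity) (hC j), fun b j ξ y => ?_⟩
  have h1 := hwt.pos ξ
  have h2 : (|h| * nz ξ) ^ j ≤ |h| ^ j * (C j * wt ξ) := by
    rw [mul_pow]
    exact mul_le_mul_of_nonneg_left
      ((pow_le_pow_left₀ (nz_nonneg ξ) (by linarith) j).trans (hC' j ξ)) (by positivity)
  rw [ev_term_eq, norm_smul, norm_div, Complex.norm_real, Real.norm_of_nonneg h1.le]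
  refine (mul_le_mul_of_nonneg_left ((norm_iteratedFDeriv_ch h ξ j y).trans h2)
    (by positivity)).trans_eq ?_
  field_simp

theorem ev_tsum (h : ℝ) {wt : Z12 → ℝ} (hwt : Wt wt) (b : E) (j : ℕ) (y : R12) :
    iteratedFDeriv ℝ j (ev h wt b) y =
      ∑' ξ, iteratedFDeriv ℝ j (fun y => b ξ / (wt ξ : ℂ) * ch h ξ y) y := by
  obtain ⟨C, -, hC⟩ := ev_bound h hwt
  exact iteratedFDeriv_tsum_apply (N := ⊤) (v := fun j ξ => C j * ‖b ξ‖)
    (fun ξ => contDiff_const.mul (contDiff_ch h ξ)) (fun j _ => (summable_norm b).mul_left _)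
    (fun j ξ y _ => hC b j ξ y) le_top y

/-- `contDiff_tsum` with the bounds `‖b ξ‖ / wt ξ * (|h| nz ξ)^j ≤ C_j ‖b ξ‖`. -/
theorem contDiff_ev (h : ℝ) {wt : Z12 → ℝ} (hwt : Wt wt) (b : E) : ContDiff ℝ ∞ (ev h wt b) := by
  obtain ⟨C, -, hC⟩ := ev_bound h hwt
  exact contDiff_tsum (N := ⊤) (v := fun j ξ => C j * ‖b ξ‖)
    (fun ξ => contDiff_const.mul (contDiff_ch h ξ)) (fun j _ => (summable_norm b).mul_left _)
    fun j ξ y _ => hC b j ξ y

/-- `iteratedFDeriv_tsum_apply`. -/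
theorem iteratedFDeriv_ev_le (h : ℝ) {wt : Z12 → ℝ} (hwt : Wt wt) (j : ℕ) :
    ∃ C : ℝ, 0 ≤ C ∧ ∀ (b : E) (y : R12), ‖iteratedFDeriv ℝ j (ev h wt b) y‖ ≤ C * ‖b‖ := by
  obtain ⟨C, h0, hC⟩ := ev_bound h hwt
  refine ⟨C j, h0 j, fun b y => ?_⟩
  rw [ev_tsum h hwt, norm_eq, ← tsum_mul_left]
  exact tsum_of_norm_bounded ((summable_norm b).mul_left _).hasSum fun ξ => hC b j ξ y

theorem lap_ev (h : ℝ) {wt : Z12 → ℝ} (hwt : Wt wt) (b : E) (y : R12) :
    lap (ev h wt b) y = ∑' ξ, -((h ^ 2 * sq ξ : ℝ) : ℂ) * (b ξ / (wt ξ : ℂ) * ch h ξ y) := by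
  obtain ⟨C, -, hC⟩ := ev_bound h hwt
  have hs : Summable fun ξ => iteratedFDeriv ℝ 2 (fun y => b ξ / (wt ξ : ℂ) * ch h ξ y) y :=
    .of_norm_bounded ((summable_norm b).mul_left _) fun ξ => hC b 2 ξ y
  have h1 := hasSum_sum (s := Finset.univ) fun (i : Fin 12) _ => hs.hasSum.mapL
    (ContinuousMultilinearMap.apply ℝ (fun _ : Fin 2 => R12) ℂ ![ee i, ee i])
  rw [lap, ev_tsum h hwt]
  refine h1.tsum_eq.symm.trans (tsum_congr fun ξ => ?_)
  simp only [ContinuousMultilinearMap.apply_apply, ev_term_eq, smul_apply,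
    smul_eq_mul]
  rw [← Finset.mul_sum, ← lap, lap_ch]
  ring

theorem per_ev (h : ℝ) (wt : Z12 → ℝ) (b : E) : Per h (ev h wt b) := by
  intro h0 y i
  refine tsum_congr fun ξ => ?_
  have e : ch h ξ (EuclideanSpace.single i (2 * Real.pi / h)) = 1 := by
    rw [ch, ← Complex.exp_int_mul_two_pi_mul_I (ξ i)]
    congr 1
    have h1 : (h : ℂ) ≠ 0 := by exact_mod_cast h0
    simp [PiLp.single_apply]
    field_simp
  rw [ch_add_right, e, mul_one]

end Crest.Agent.R086.L
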