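import Crest.Agent.R086.L.Defs

/-!
# Row 86, part L: decay of Fourier coefficients by finite differences
-/

set_option autoImplicit false

open Crest.AnalysisR.PDE.NLS
open scoped ContDiff

namespace Crest.Agent.R086.L

/-- Finite differences.  Induction on `N` generalizing `F B`: `G y = F (y+v) - F y` is smooth, periodic and
`‖D^N G y‖ ≤ B ‖v‖` by the mean value inequality (`norm_fderiv_iteratedFDeriv`,
`iteratedFDeriv_comp_add_right`, `Convex.norm_image_sub_le_of_norm_fderiv_le`). -/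
theorem diff_decay (h : ℝ) (fc : (R12 → ℂ) → Z12 → ℂ)
    (h1 : ∀ (F : R12 → ℂ) (B : ℝ), Continuous F → Per h F → (∀ y, ‖F y‖ ≤ B) → ∀ ξ, ‖fc F ξ‖ ≤ B)
    (h2 : ∀ (F : R12 → ℂ) (v : R12), Continuous F → Per h F → ∀ ξ,
        fc (fun y => F (y + v) - F y) ξ = (ch h ξ v - 1) * fc F ξ)
    (v : R12) (ξ : Z12) (N : ℕ) (F : R12 → ℂ) (B : ℝ) (hF : ContDiff ℝ ∞ F) (hP : Per h F)
    (hB : ∀ y, ‖iteratedFDeriv ℝ N F y‖ ≤ B) :
    ‖ch h ξ v - 1‖ ^ N * ‖fc F ξ‖ ≤ B * ‖v‖ ^ N := by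
  induction N generalizing F B with
  | zero =>
    simp only [pow_zero, one_mul, mul_one]
    refine h1 F B hF.continuous hP (fun y => ?_) ξ
    simpa using hB y
  | succ N ih =>
    have hFv : ContDiff ℝ ∞ (fun y => F (y + v)) := hF.comp (contDiff_id.add contDiff_const)
    have hG : ContDiff ℝ ∞ (fun y => F (y + v) - F y) := hFv.sub hF
    have hGP : Per h (fun y => F (y + v) - F y) := by
      intro h0 y i
      show F (y + _ + v) - F (y + _) = F (y + v) - F y
      rw [add_right_comm, hP h0, hP h0]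
    have hd : Differentiable ℝ (iteratedFDeriv ℝ N F) :=
      hF.differentiable_iteratedFDeriv (by exact_mod_cast ENat.natCast_lt_top N)
    have hGB : ∀ y, ‖iteratedFDeriv ℝ N (fun y => F (y + v) - F y) y‖ ≤ B * ‖v‖ := by
      intro y
      have hN : (N : ℕ∞ω) ≤ ∞ := by exact_mod_cast le_top
      rw [fun_iteratedFDeriv_sub_apply (hFv.of_le hN).contDiffAt (hF.of_le hN).contDiffAt,
        iteratedFDeriv_comp_add_right]
      have := Convex.norm_image_sub_le_of_norm_fderiv_le (𝕜 := ℝ) (f := iteratedFDeriv ℝ N F)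
        (s := Set.univ) (C := B) (x := y) (y := y + v) (fun x _ => hd x)
        (fun x _ => by rw [norm_fderiv_iteratedFDeriv]; exact hB x) convex_univ trivial trivial
      simpa using this
    have := ih _ _ hG hGP hGB
    rw [h2 F v hF.continuous hP, norm_mul] at this
    calc ‖ch h ξ v - 1‖ ^ (N + 1) * ‖fc F ξ‖
        = ‖ch h ξ v - 1‖ ^ N * (‖ch h ξ v - 1‖ * ‖fc F ξ‖) := by ring
      _ ≤ B * ‖v‖ * ‖v‖ ^ N := this
      _ = B * ‖v‖ ^ (N + 1) := by ring

/-- Decay.  For `ξ ≠ 0` take `i` with `|ξ i|` maximal (`nz ξ ≤ 12 |ξ i|`, so `1 + nz ξ ≤ 13 |ξ i|`) and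
`v = single i (π / (h ξ i))`, so that `ch h ξ v = -1`.  For `ξ = 0` use `h1`. -/
theorem coeff_decay (h : ℝ) (hh : 0 < h) (fc : (R12 → ℂ) → Z12 → ℂ)
    (h1 : ∀ (F : R12 → ℂ) (B : ℝ), Continuous F → Per h F → (∀ y, ‖F y‖ ≤ B) → ∀ ξ, ‖fc F ξ‖ ≤ B)
    (h2 : ∀ (F : R12 → ℂ) (v : R12), Continuous F → Per h F → ∀ ξ,
        fc (fun y => F (y + v) - F y) ξ = (ch h ξ v - 1) * fc F ξ) (N : ℕ) :
    ∃ C : ℝ, 0 ≤ C ∧ ∀ (F : R12 → ℂ) (B : ℝ), ContDiff ℝ ∞ F → Per h F → (∀ y, ‖F y‖ ≤ B) →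
      (∀ y, ‖iteratedFDeriv ℝ N F y‖ ≤ B) → ∀ ξ, (1 + nz ξ) ^ N * ‖fc F ξ‖ ≤ C * B := by
  refine ⟨1 + (13 * (Real.pi / h)) ^ N, by positivity, ?_⟩
  intro F B hF hP hB0 hB ξ
  have hB' : 0 ≤ B := (norm_nonneg _).trans (hB0 0)
  have hC : 0 ≤ (13 * (Real.pi / h)) ^ N := by positivity
  by_cases hξ : ξ = 0
  · have : nz ξ = 0 := by simp [hξ, nz]
    rw [this, add_zero, one_pow, one_mul]
    have := h1 F B hF.continuous hP hB0 ξ
    nlinarith [mul_nonneg hC hB']
  · obtain ⟨i, -, hi⟩ := Finset.exists_max_image Finset.univ (fun i => |(ξ i : ℝ)|)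
      Finset.univ_nonempty
    have hnz : nz ξ ≤ 12 * |(ξ i : ℝ)| := by
      calc nz ξ ≤ ∑ _j : Fin 12, |(ξ i : ℝ)| := Finset.sum_le_sum fun j hj => hi j hj
        _ = 12 * |(ξ i : ℝ)| := by simp
    have hi0 : ξ i ≠ 0 := by
      intro h0
      apply hξ
      funext j
      have := hi j (Finset.mem_univ j)
      simp only [h0, Int.cast_zero, abs_zero, abs_nonpos_iff, Int.cast_eq_zero] at this
      exact this
    have hi1 : (1 : ℝ) ≤ |(ξ i : ℝ)| := by exact_mod_cast Int.one_le_abs hi0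
    have hir : (ξ i : ℝ) ≠ 0 := by exact_mod_cast hi0
    set v : R12 := EuclideanSpace.single i (Real.pi / (h * ξ i)) with hv
    have hch : ch h ξ v = -1 := by
      have e : h * ∑ j, (ξ j : ℝ) * v j = Real.pi := by
        rw [Finset.sum_eq_single i]
        · simp only [hv, PiLp.single_apply, if_true]
          field_simp
        · intro j _ hj
          simp [hv, hj]
        · simp
      unfold ch
      rw [e, mul_comm, Complex.exp_pi_mul_I]
    have hvn : ‖v‖ = Real.pi / h / |(ξ i : ℝ)| := by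
      rw [hv, PiLp.norm_single, Real.norm_eq_abs, abs_div, abs_mul, abs_of_pos hh,
        abs_of_pos Real.pi_pos, div_div]
    have key := diff_decay h fc h1 h2 v ξ N F B hF hP hB
    have e2 : ‖ch h ξ v - 1‖ = 2 := by rw [hch]; norm_num
    rw [e2] at key
    have h2N : (1 : ℝ) ≤ 2 ^ N := one_le_pow₀ (by norm_num)
    have key' : ‖fc F ξ‖ ≤ B * ‖v‖ ^ N := by nlinarith [norm_nonneg (fc F ξ)]
    have h13 : (1 + nz ξ) ^ N ≤ (13 * |(ξ i : ℝ)|) ^ N :=
      pow_le_pow_left₀ (by linarith [nz_nonneg ξ]) (by linarith) N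
    have e3 : (13 * |(ξ i : ℝ)|) * ‖v‖ = 13 * (Real.pi / h) := by
      rw [hvn]; field_simp
    calc (1 + nz ξ) ^ N * ‖fc F ξ‖ ≤ (13 * |(ξ i : ℝ)|) ^ N * (B * ‖v‖ ^ N) :=
          mul_le_mul h13 key' (norm_nonneg _) (by positivity)
      _ = ((13 * |(ξ i : ℝ)|) * ‖v‖) ^ N * B := by rw [mul_pow _ ‖v‖]; ring
      _ = (13 * (Real.pi / h)) ^ N * B := by rw [e3]
      _ ≤ (1 + (13 * (Real.pi / h)) ^ N) * B := by nlinarith

theorem Four2_summable_pi {ι : Type} [Fintype ι] (g : ℤ → ℝ) (hg0 : ∀ k, 0 ≤ g k)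
    (hg : Summable g) : Summable fun ξ : ι → ℤ => ∏ i, g (ξ i) := by
  classical
  refine summable_of_sum_le (c := ∏ _i : ι, ∑' k, g k)
    (fun ξ => Finset.prod_nonneg fun i _ => hg0 _) fun s => ?_
  calc ∑ ξ ∈ s, ∏ i, g (ξ i)
      ≤ ∑ ξ ∈ Fintype.piFinset (fun i => s.image fun ξ => ξ i), ∏ i, g (ξ i) := by
        refine Finset.sum_le_sum_of_subset_of_nonneg (fun ξ hξ => ?_)
          (fun ξ _ _ => Finset.prod_nonneg fun i _ => hg0 _)
        exact Fintype.mem_piFinset.2 fun i => Finset.mem_image_of_mem _ hξ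
    _ = ∏ i : ι, ∑ k ∈ s.image (fun ξ => ξ i), g k :=
        by rw [Finset.prod_univ_sum]
    _ ≤ ∏ _i : ι, ∑' k, g k :=
        Finset.prod_le_prod (fun i _ => Finset.sum_nonneg fun k _ => hg0 k)
          fun i _ => hg.sum_le_tsum _ fun k _ => hg0 k

/-- `∏ i, (1 + |ξ i|)^2 ≤ (1 + nz ξ)^24` and a product of summable series over `ℤ`. -/
theorem summable_inv_pow : Summable fun ξ : Z12 => ((1 + nz ξ) ^ 24)⁻¹ := by
  let g : ℤ → ℝ := fun k => ((1 + |(k : ℝ)|) ^ 2)⁻¹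
  have hg0 : ∀ k, 0 ≤ g k := fun k => by positivity
  have hn : Summable fun k : ℕ => ((1 + (k : ℝ)) ^ 2)⁻¹ := by
    have := (summable_nat_add_iff 1).2 (Real.summable_nat_pow_inv.2 one_lt_two)
    simpa [add_comm] using this
  have hg : Summable g := by
    refine Summable.of_nat_of_neg ?_ ?_
    · simpa [g] using hn
    · simpa [g] using hn
  have hp : Summable fun ξ : Z12 => ∏ i, g (ξ i) := Four2_summable_pi g hg0 hg
  refine Summable.of_nonneg_of_le (fun ξ => by have := nz_nonneg ξ; positivity) (fun ξ => ?_) hp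
  simp only [g, Finset.prod_inv_distrib]
  refine inv_anti₀ (Finset.prod_pos fun i _ => by positivity) ?_
  calc ∏ i, (1 + |(ξ i : ℝ)|) ^ 2 ≤ ∏ _i : Fin 12, (1 + nz ξ) ^ 2 :=
        Finset.prod_le_prod (fun i _ => by positivity) fun i _ =>
          pow_le_pow_left₀ (by positivity) (by linarith [abs_le_nz ξ i]) 2
    _ = (1 + nz ξ) ^ 24 := by simp [← pow_mul]

/-- Derivatives of a smooth periodic function are bounded (periodic, continuous, compact cell). -/
theorem bdd_of_per (h : ℝ) (hh : 0 < h) (F : R12 → ℂ) (hF : ContDiff ℝ ∞ F) (hP : Per h F) (N : ℕ) :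
    ∃ B : ℝ, ∀ y, ‖iteratedFDeriv ℝ N F y‖ ≤ B := by
  set T : ℝ := 2 * Real.pi / h with hT
  have hT0 : 0 < T := by positivity
  have hc : Continuous (iteratedFDeriv ℝ N F) :=
    hF.continuous_iteratedFDeriv (by exact_mod_cast le_top)
  have hper : ∀ i : Fin 12, Function.Periodic (iteratedFDeriv ℝ N F) (EuclideanSpace.single i T) := by
    intro i y
    rw [← iteratedFDeriv_comp_add_right]
    congr 1
    funext z
    exact hP hh.ne' z i
  have hsum : ∀ (k : Fin 12 → ℤ) (s : Finset (Fin 12)), Function.Periodic (iteratedFDeriv ℝ N F)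
      (∑ i ∈ s, k i • (EuclideanSpace.single i T : R12)) := by
    intro k s
    induction s using Finset.induction_on with
    | empty => intro y; simp
    | insert a s ha ih =>
      rw [Finset.sum_insert ha]
      exact ((hper a).zsmul (k a)).add_period ih
  have hK : IsCompact ((EuclideanSpace.equiv (Fin 12) ℝ).toHomeomorph ⁻¹'
      Set.pi Set.univ fun _ => Set.Icc 0 T) :=
    (EuclideanSpace.equiv (Fin 12) ℝ).toHomeomorph.isCompact_preimage.2
      (isCompact_univ_pi fun _ => isCompact_Icc)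
  obtain ⟨B, hB⟩ := hK.exists_bound_of_continuousOn hc.continuousOn
  refine ⟨B, fun y => ?_⟩
  rw [← hsum (fun i => -⌊y i / T⌋) Finset.univ y]
  refine hB _ fun i _ => ?_
  have e : (y + ∑ j, (-⌊y j / T⌋) • (EuclideanSpace.single j T : R12)) i
      = y i - ⌊y i / T⌋ * T := by
    simp only [PiLp.add_apply, WithLp.ofLp_sum, Finset.sum_apply, PiLp.smul_apply,
      PiLp.single_apply]
    rw [Finset.sum_eq_single i]
    · simp [sub_eq_add_neg]
    · intro j _ hj
      simp [hj.symm]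
    · simp
  show (y + ∑ j, (-⌊y j / T⌋) • (EuclideanSpace.single j T : R12)) i ∈ Set.Icc 0 T
  rw [e]
  exact ⟨Int.sub_floor_div_mul_nonneg _ hT0, (Int.sub_floor_div_mul_lt _ hT0).le⟩

end Crest.Agent.R086.L
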