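import Crest.Agent.R086.L.Defs

/-!
# Row 86, part L: the free group and evaluation as continuous linear maps
-/

set_option autoImplicit false

open Crest.AnalysisR.PDE.NLS Set

namespace Crest.Agent.R086.L

theorem grp_norm_exp (r : ℝ) : ‖Complex.exp (-Complex.I * (r : ℂ))‖ = 1 := by
  rw [Complex.norm_exp]; simp

/-- the free Schrödinger group on `ℓ¹` (continuity in `t`: `‖G t b - G s b‖ = ∑' ‖..‖`, dominated
convergence / `continuous_tsum`). -/
theorem exists_G (h : ℝ) :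
    ∃ G : ℝ → E →L[ℂ] E,
      (∀ t b ξ, G t b ξ = Complex.exp (-Complex.I * ((t * (h ^ 2 * sq ξ) : ℝ) : ℂ)) * b ξ) ∧
      (∀ t b, ‖G t b‖ = ‖b‖) ∧ ∀ b, Continuous fun t => G t b := by
  have hm : ∀ (t : ℝ) (b : E),
      Memℓp (fun ξ => Complex.exp (-Complex.I * ((t * (h ^ 2 * sq ξ) : ℝ) : ℂ)) * b ξ) 1 := by
    intro t b
    refine mem_of_summable ?_
    simp only [norm_mul, grp_norm_exp, one_mul]
    exact summable_norm b
  let g : ℝ → E →ₗ[ℂ] E := fun t =>
    { toFun := fun b => ⟨fun ξ => Complex.exp (-Complex.I * ((t * (h ^ 2 * sq ξ) : ℝ) : ℂ)) * b ξ,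
        hm t b⟩
      map_add' := fun b c => by
        ext ξ
        exact mul_add _ _ _
      map_smul' := fun c b => by
        ext ξ
        exact mul_left_comm _ _ _ }
  have hg : ∀ t b ξ, g t b ξ = Complex.exp (-Complex.I * ((t * (h ^ 2 * sq ξ) : ℝ) : ℂ)) * b ξ :=
    fun _ _ _ => rfl
  have hn : ∀ t b, ‖g t b‖ = ‖b‖ := by
    intro t b
    rw [norm_eq, norm_eq]
    simp only [hg, norm_mul, grp_norm_exp, one_mul]
  refine ⟨fun t => (g t).mkContinuous 1 fun b => by rw [hn, one_mul], hg, hn, fun b => ?_⟩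
  show Continuous fun t => g t b
  rw [continuous_iff_continuousAt]
  intro s
  rw [ContinuousAt, tendsto_iff_norm_sub_tendsto_zero]
  have hc : Continuous fun t => ∑' ξ, ‖g t b ξ - g s b ξ‖ := by
    refine continuous_tsum (u := fun ξ => 2 * ‖b ξ‖) (fun ξ => ?_) ((summable_norm b).mul_left 2)
      fun ξ t => ?_
    · simp only [hg]
      fun_prop
    · rw [norm_norm]
      refine (norm_sub_le _ _).trans (le_of_eq ?_)
      simp only [hg, norm_mul, grp_norm_exp, one_mul]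
      ring
  have h0 := hc.tendsto s
  simp only [sub_self, norm_zero, tsum_zero] at h0
  refine h0.congr fun t => ?_
  rw [norm_eq]
  rfl

theorem exists_evL (h : ℝ) {ω : Z12 → ℝ} (hω : Wt ω) (y : R12) :
    ∃ Λ : E →L[ℂ] ℂ, (∀ b, Λ b = ev h ω b y) ∧ ∀ b, ‖Λ b‖ ≤ ‖b‖ := by
  have hn : ∀ b : E, ‖ev h ω b y‖ ≤ ‖b‖ := by
    intro b
    rw [norm_eq]
    exact tsum_of_norm_bounded (summable_norm b).hasSum fun ξ => hω.norm_term_le h b ξ y
  let g : E →ₗ[ℂ] ℂ :=
    { toFun := fun b => ev h ω b y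
      map_add' := fun b c => by
        unfold ev
        rw [← (hω.summable_term h b y).of_norm.tsum_add (hω.summable_term h c y).of_norm]
        refine tsum_congr fun ξ => ?_
        rw [lp.coeFn_add, Pi.add_apply]; ring
      map_smul' := fun c b => by
        unfold ev
        rw [RingHom.id_apply, smul_eq_mul, ← tsum_mul_left]
        refine tsum_congr fun ξ => ?_
        rw [lp.coeFn_smul, Pi.smul_apply, smul_eq_mul]; ring }
  exact ⟨g.mkContinuous 1 fun b => by rw [one_mul]; exact hn b, fun _ => rfl, hn⟩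

/-- `hasDerivAt_tsum` with the bound `h² sq ξ ‖b ξ‖ / ω ξ ≤ C ‖b ξ‖`. -/
theorem hasDerivAt_ev_G (h : ℝ) {ω : Z12 → ℝ} (hω : Wt ω) (G : ℝ → E →L[ℂ] E)
    (hG : ∀ t b ξ, G t b ξ = Complex.exp (-Complex.I * ((t * (h ^ 2 * sq ξ) : ℝ) : ℂ)) * b ξ)
    (b : E) (y : R12) (t : ℝ) :
    HasDerivAt (fun s => ev h ω (G s b) y)
      (Complex.I * ∑' ξ, -((h ^ 2 * sq ξ : ℝ) : ℂ) * (G t b ξ / (ω ξ : ℂ) * ch h ξ y)) t := by
  obtain ⟨C, hC0, hC⟩ := hω.grow 2
  rw [← tsum_mul_left]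
  unfold ev
  refine hasDerivAt_tsum (u := fun ξ => h ^ 2 * C * ‖b ξ‖)
    (g := fun ξ s => G s b ξ / (ω ξ : ℂ) * ch h ξ y)
    (g' := fun ξ s => Complex.I * (-((h ^ 2 * sq ξ : ℝ) : ℂ) * (G s b ξ / (ω ξ : ℂ) * ch h ξ y)))
    (y₀ := 0) ((summable_norm b).mul_left _) (fun ξ s => ?_) (fun ξ s => ?_)
    (hω.summable_term h (G 0 b) y).of_norm t
  · simp only [hG]
    have h1 : HasDerivAt (fun s : ℝ => -Complex.I * ((s * (h ^ 2 * sq ξ) : ℝ) : ℂ))
        (-Complex.I * ((h ^ 2 * sq ξ : ℝ) : ℂ)) s := by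
      have := ((hasDerivAt_id s).mul_const (h ^ 2 * sq ξ)).ofReal_comp.const_mul (-Complex.I)
      simpa only [id, one_mul] using this
    have h2 := ((h1.cexp.mul_const (b ξ)).div_const (ω ξ : ℂ)).mul_const (ch h ξ y)
    refine h2.congr_deriv ?_
    ring
  · rw [norm_mul, Complex.norm_I, one_mul, norm_mul, norm_neg, norm_mul, norm_ch, mul_one, norm_div,
      hG, norm_mul, grp_norm_exp, one_mul, Complex.norm_real, Complex.norm_real,
      Real.norm_of_nonneg (hω.pos ξ).le,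
      Real.norm_of_nonneg (mul_nonneg (sq_nonneg h) (sq_nonneg' ξ)), ← mul_div_assoc,
      div_le_iff₀ (hω.pos ξ)]
    have h1 : sq ξ ≤ C * ω ξ := (sq_le ξ).trans (hC ξ)
    calc h ^ 2 * sq ξ * ‖b ξ‖ ≤ h ^ 2 * (C * ω ξ) * ‖b ξ‖ := by gcongr
      _ = _ := by ring

/-- product rule for a bounded, strongly continuous family of functionals:
`Λ s (v s) - Λ t (v t) = Λ s (v s - v t - (s - t) • v') + (s - t) • Λ s v' + (Λ s (v t) - Λ t (v t))`. -/
theorem hasDerivWithinAt_apply (Λ : ℝ → E →L[ℂ] ℂ) (hb : ∀ s b, ‖Λ s b‖ ≤ ‖b‖)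
    (hc : ∀ b, Continuous fun s => Λ s b) {v : ℝ → E} {v' : E} {J : Set ℝ} {t : ℝ} {d : ℂ}
    (hd : HasDerivAt (fun s => Λ s (v t)) d t) (hv : HasDerivWithinAt v v' J t) :
    HasDerivWithinAt (fun s => Λ s (v s)) (d + Λ t v') J t := by
  have h1 : HasDerivWithinAt (fun s => Λ s (v s - v t - (s - t) • v')) 0 J t := by
    rw [hasDerivWithinAt_iff_isLittleO] at hv ⊢
    simp only [sub_self, zero_smul, map_zero, sub_zero, smul_zero]
    refine Asymptotics.IsBigO.trans_isLittleO ?_ hv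
    exact Asymptotics.IsBigO.of_bound 1 (Filter.Eventually.of_forall fun s => by
      rw [one_mul]; exact hb _ _)
  have h2 : HasDerivAt (fun s => (s - t) • Λ s v') (Λ t v') t := by
    rw [hasDerivAt_iff_isLittleO]
    simp only [sub_self, zero_smul, sub_zero, ← smul_sub]
    have h3 : (fun s => Λ s v' - Λ t v') =o[nhds t] fun _ => (1 : ℝ) := by
      rw [Asymptotics.isLittleO_one_iff]
      simpa using ((hc v').tendsto t).sub_const (Λ t v')
    have h4 := (Asymptotics.isBigO_refl (fun s : ℝ => s - t) (nhds t)).smul_isLittleO h3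
    simpa using h4
  have h3 := (h1.add h2.hasDerivWithinAt).add hd.hasDerivWithinAt
  rw [zero_add, add_comm (Λ t v') d] at h3
  refine h3.congr (fun s _ => ?_) ?_
  · simp only [Pi.add_apply, map_sub, ContinuousLinearMap.map_smul_of_tower]; ring
  · simp

end Crest.Agent.R086.L
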