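import Crest.Agent.R086.L.Defs

/-!
# Row 86, part L: a super-polynomial weight adapted to a rapidly decaying sequence
-/

set_option autoImplicit false

namespace Crest.Agent.R086.L

/-- Put `m s = ∑' (1 + nz ξ)^s ‖a ξ‖`, `ε s = 2^{-s-1} / (1 + m (s+1))`, `P s ξ = ∏ j < s, (1 + ε j * nz ξ)`,
`ω ξ = ⨆ s, P s ξ` (`P s ξ ≤ exp (nz ξ)`, `P` is monotone in `s`, `P s ξ ≤ (1 + nz ξ)^s`).  By induction
`∑' P s ξ ‖a ξ‖ ≤ ∑' ‖a ξ‖ + 1 - 2^{-s}`; pass to the limit on finite sums. -/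
theorem exists_wt (a : Z12 → ℂ) (ha : ∀ s : ℕ, Summable fun ξ => (1 + nz ξ) ^ s * ‖a ξ‖) :
    ∃ ω : Z12 → ℝ, Wt ω ∧ (Summable fun ξ => ω ξ * ‖a ξ‖) ∧
      ∑' ξ, ω ξ * ‖a ξ‖ ≤ ∑' ξ, ‖a ξ‖ + 1 := by
  obtain ⟨ε, e0, e1, e2⟩ : ∃ ε : ℕ → ℝ, (∀ j, 0 < ε j) ∧ (∀ j, ε j ≤ (1 / 2) ^ (j + 1)) ∧
      ∀ j, ε j * ∑' ξ, (1 + nz ξ) ^ (j + 1) * ‖a ξ‖ ≤ (1 / 2) ^ (j + 1) := by
    have hm : ∀ s : ℕ, 0 ≤ ∑' ξ, (1 + nz ξ) ^ s * ‖a ξ‖ := fun s =>
      tsum_nonneg fun ξ => by have := nz_nonneg ξ; positivity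
    refine ⟨fun j => (1 / 2) ^ (j + 1) / (1 + ∑' ξ, (1 + nz ξ) ^ (j + 1) * ‖a ξ‖),
      fun j => by have := hm (j + 1); positivity,
      fun j => div_le_self (by positivity) (by linarith [hm (j + 1)]), fun j => ?_⟩
    rw [div_mul_eq_mul_div, mul_div_assoc]
    exact mul_le_of_le_one_right (by positivity)
      (div_le_one_of_le₀ (by linarith) (by linarith [hm (j + 1)]))
  have e3 : ∀ j, ε j ≤ 1 := fun j => (e1 j).trans (pow_le_one₀ (by norm_num) (by norm_num))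
  set P : ℕ → Z12 → ℝ := fun s ξ => ∏ j ∈ Finset.range s, (1 + ε j * nz ξ) with hP
  have f1 : ∀ j ξ, 1 ≤ 1 + ε j * nz ξ := fun j ξ =>
    le_add_of_nonneg_right (mul_nonneg (e0 j).le (nz_nonneg ξ))
  have f0 : ∀ j ξ, 0 ≤ 1 + ε j * nz ξ := fun j ξ => zero_le_one.trans (f1 j ξ)
  have p0 : ∀ s ξ, 0 ≤ P s ξ := fun s ξ => Finset.prod_nonneg fun j _ => f0 j ξ
  have ps : ∀ s ξ, P (s + 1) ξ = P s ξ * (1 + ε s * nz ξ) := fun s ξ => Finset.prod_range_succ _ _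
  have pz : ∀ ξ, P 0 ξ = 1 := fun ξ => Finset.prod_range_zero _
  have p1 : ∀ s ξ, P s ξ ≤ (1 + nz ξ) ^ s := fun s ξ => by
    refine (Finset.prod_le_prod (fun j _ => f0 j ξ) fun j _ => ?_).trans_eq
      (by rw [Finset.prod_const, Finset.card_range])
    nlinarith [e3 j, nz_nonneg ξ]
  have p2 : ∀ s ξ, P s ξ ≤ Real.exp ((1 - (1 / 2) ^ s) * nz ξ) := fun s ξ => by
    induction s with
    | zero => simp [pz]
    | succ s ih =>
      rw [ps]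
      refine (mul_le_mul ih ((add_comm _ _).le.trans (Real.add_one_le_exp _)) (f0 s ξ)
        (Real.exp_pos _).le).trans ?_
      rw [← Real.exp_add, Real.exp_le_exp, ← add_mul]
      refine mul_le_mul_of_nonneg_right ?_ (nz_nonneg ξ)
      have := e1 s
      rw [pow_succ] at this ⊢
      linarith
  have bdd : ∀ ξ, BddAbove (Set.range fun s => P s ξ) := fun ξ => by
    refine ⟨Real.exp (nz ξ), ?_⟩
    rintro _ ⟨s, rfl⟩
    refine (p2 s ξ).trans (Real.exp_le_exp.2 (mul_le_of_le_one_left (nz_nonneg ξ) ?_))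
    have : (0 : ℝ) ≤ (1 / 2) ^ s := by positivity
    linarith
  have mono : ∀ ξ, Monotone fun s => P s ξ := fun ξ => monotone_nat_of_le_succ fun s => by
    rw [ps]
    exact le_mul_of_one_le_right (p0 s ξ) (f1 s ξ)
  have le : ∀ s ξ, P s ξ ≤ ⨆ s, P s ξ := fun s ξ => le_ciSup (bdd ξ) s
  have one : ∀ ξ, 1 ≤ ⨆ s, P s ξ := fun ξ => (pz ξ).ge.trans (le 0 ξ)
  have s0 : Summable fun ξ => ‖a ξ‖ := by simpa using ha 0
  have fin : ∀ (u : Finset Z12) (s : ℕ),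
      ∑ ξ ∈ u, P s ξ * ‖a ξ‖ ≤ ∑' ξ, ‖a ξ‖ + 1 - (1 / 2) ^ s := fun u s => by
    induction s with
    | zero => simpa [pz] using s0.sum_le_tsum u fun _ _ => norm_nonneg _
    | succ s ih =>
      have h1 : ∀ ξ ∈ u, P (s + 1) ξ * ‖a ξ‖ ≤
          P s ξ * ‖a ξ‖ + ε s * ((1 + nz ξ) ^ (s + 1) * ‖a ξ‖) := fun ξ _ => by
        rw [← mul_assoc, ← add_mul, ps]
        refine mul_le_mul_of_nonneg_right ?_ (norm_nonneg _)
        have : P s ξ * nz ξ ≤ (1 + nz ξ) ^ (s + 1) := by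
          rw [pow_succ]
          have := nz_nonneg ξ
          exact mul_le_mul (p1 s ξ) (by linarith) this (by positivity)
        nlinarith [e0 s]
      refine (Finset.sum_le_sum h1).trans ?_
      rw [Finset.sum_add_distrib, ← Finset.mul_sum]
      have h2 := (mul_le_mul_of_nonneg_left ((ha (s + 1)).sum_le_tsum u fun ξ _ => by
        have := nz_nonneg ξ; positivity) (e0 s).le).trans (e2 s)
      rw [pow_succ (1 / 2 : ℝ)] at h2 ⊢
      linarith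
  have fin' : ∀ u : Finset Z12, ∑ ξ ∈ u, (⨆ s, P s ξ) * ‖a ξ‖ ≤ ∑' ξ, ‖a ξ‖ + 1 := fun u => by
    refine le_of_tendsto' (tendsto_finset_sum u fun ξ _ =>
      (tendsto_atTop_ciSup (mono ξ) (bdd ξ)).mul_const ‖a ξ‖) fun s => (fin u s).trans ?_
    have : (0 : ℝ) ≤ (1 / 2) ^ s := by positivity
    linarith
  have sm : Summable fun ξ => (⨆ s, P s ξ) * ‖a ξ‖ :=
    summable_of_sum_le (fun ξ => mul_nonneg (zero_le_one.trans (one ξ)) (norm_nonneg _)) fin'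
  refine ⟨fun ξ => ⨆ s, P s ξ, ⟨one, fun ξ => by simp only [hP, nz_neg], fun ξ η => ?_,
    fun s => ?_⟩, sm, sm.tsum_le_of_sum_le fin'⟩
  · refine ciSup_le fun s => le_trans ?_
      (mul_le_mul (le s ξ) (le s η) (p0 s η) (zero_le_one.trans (one ξ)))
    simp only [hP, ← Finset.prod_mul_distrib]
    refine Finset.prod_le_prod (fun j _ => f0 j _) fun j _ => ?_
    nlinarith [mul_le_mul_of_nonneg_left (nz_add_le ξ η) (e0 j).le,
      mul_nonneg (mul_nonneg (e0 j).le (nz_nonneg ξ)) (mul_nonneg (e0 j).le (nz_nonneg η))]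
  · have c0 : 0 ≤ ∏ j ∈ Finset.range s, (ε j)⁻¹ :=
      Finset.prod_nonneg fun j _ => inv_nonneg.2 (e0 j).le
    refine ⟨_, c0, fun ξ => le_trans ?_ (mul_le_mul_of_nonneg_left (le s ξ) c0)⟩
    simp only [hP, ← Finset.prod_mul_distrib]
    rw [← Finset.card_range s, ← Finset.prod_const, Finset.card_range]
    refine Finset.prod_le_prod (fun j _ => by linarith [nz_nonneg ξ]) fun j _ => ?_
    rw [mul_add, mul_one, inv_mul_cancel_left₀ (e0 j).ne']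
    linarith [(one_le_inv₀ (e0 j)).2 (e3 j)]

end Crest.Agent.R086.L
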