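import Crest.Agent.R086.L.Four1
import Crest.Agent.R086.L.Four2
import Crest.Agent.R086.L.Weight
import Crest.Agent.R086.L.Alg
import Crest.Agent.R086.L.Ev
import Crest.Agent.R086.L.Grp

/-!
# Row 86, part L: local existence of smooth periodic solutions
-/

set_option autoImplicit false

open Crest.AnalysisR.PDE.NLS Set Filter Topology Metric
open scoped ContDiff NNReal

namespace Crest.Agent.R086.L

/-- Fourier expansion with rapidly decaying coefficients and a bound in the Wiener algebra. -/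
theorem fourier (h : ℝ) (hh : 0 < h) :
    ∃ C : ℝ, 0 ≤ C ∧ ∀ (F : R12 → ℂ) (B : ℝ), ContDiff ℝ ∞ F → Per h F →
      (∀ j : ℕ, j ≤ 24 → ∀ y, ‖iteratedFDeriv ℝ j F y‖ ≤ B) →
      ∃ a : Z12 → ℂ, (∀ y, HasSum (fun ξ => a ξ * ch h ξ y) (F y)) ∧
        (∀ s : ℕ, Summable fun ξ => (1 + nz ξ) ^ s * ‖a ξ‖) ∧ ∑' ξ, ‖a ξ‖ ≤ C * B := by
  obtain ⟨fc, h1, h2, h3⟩ := exists_fc h hh
  obtain ⟨C, hC, hdec⟩ := coeff_decay h hh fc h1 h2 24
  have hpos : ∀ ξ : Z12, 0 < 1 + nz ξ := fun ξ => by linarith [nz_nonneg ξ]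
  refine ⟨C * ∑' ξ : Z12, ((1 + nz ξ) ^ 24)⁻¹,
    mul_nonneg hC (tsum_nonneg fun ξ => (inv_pos.2 (pow_pos (hpos ξ) _)).le), ?_⟩
  intro F B hF hP hB
  have hs : ∀ s : ℕ, Summable fun ξ => (1 + nz ξ) ^ s * ‖fc F ξ‖ := by
    intro s
    obtain ⟨C', -, hdec'⟩ := coeff_decay h hh fc h1 h2 (s + 24)
    obtain ⟨B0, hB0⟩ := bdd_of_per h hh F hF hP 0
    obtain ⟨B1, hB1⟩ := bdd_of_per h hh F hF hP (s + 24)
    have key := hdec' F (max B0 B1) hF hP
      (fun y => by simpa using (hB0 y).trans (le_max_left B0 B1))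
      (fun y => (hB1 y).trans (le_max_right B0 B1))
    refine Summable.of_nonneg_of_le
      (fun ξ => mul_nonneg (pow_pos (hpos ξ) _).le (norm_nonneg _)) (fun ξ => ?_)
      (summable_inv_pow.mul_left (C' * max B0 B1))
    rw [← div_eq_mul_inv, le_div_iff₀ (pow_pos (hpos ξ) _)]
    calc (1 + nz ξ) ^ s * ‖fc F ξ‖ * (1 + nz ξ) ^ 24 = (1 + nz ξ) ^ (s + 24) * ‖fc F ξ‖ := by ring
      _ ≤ _ := key ξ
  have h0 : Summable fun ξ => ‖fc F ξ‖ := by simpa using hs 0
  refine ⟨fc F, h3 F hF.continuous hP h0.of_norm, hs, ?_⟩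
  have key := hdec F B hF hP (fun y => by simpa using hB 0 (by norm_num) y) (hB 24 le_rfl)
  calc ∑' ξ, ‖fc F ξ‖ ≤ ∑' ξ : Z12, C * B * ((1 + nz ξ) ^ 24)⁻¹ := by
        refine h0.tsum_le_tsum (fun ξ => ?_) (summable_inv_pow.mul_left _)
        rw [← div_eq_mul_inv, le_div_iff₀ (pow_pos (hpos ξ) _), mul_comm]
        exact key ξ
    _ = _ := by rw [tsum_mul_left]; ring

theorem ev_sub (h : ℝ) {wt : Z12 → ℝ} (hw : Wt wt) (b c : E) :
    ev h wt (b - c) = ev h wt b - ev h wt c := by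
  funext y
  obtain ⟨Λ, hΛ, -⟩ := exists_evL h hw y
  simp [← hΛ]

theorem ck_ev (h : ℝ) {wt : Z12 → ℝ} (hw : Wt wt) {u : ℝ → E} {J : Set ℝ} (hu : ContinuousOn u J)
    (k : ℕ) : Ck k J (fun t => ev h wt (u t)) := by
  refine ⟨fun t _ => (contDiff_ev h hw (u t)).of_le (by exact_mod_cast le_top), fun j _ => ?_⟩
  obtain ⟨C, hC, hb⟩ := iteratedFDeriv_ev_le h hw j
  rintro ⟨t, y⟩ ⟨ht, -⟩
  have hj : (j : WithTop ℕ∞) ≤ ∞ := by exact_mod_cast le_top
  have h1 : ContinuousWithinAt (fun p : ℝ × R12 => iteratedFDeriv ℝ j (ev h wt (u t)) p.2)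
      (J ×ˢ univ) (t, y) :=
    (((contDiff_ev h hw (u t)).continuous_iteratedFDeriv hj).comp
      continuous_snd).continuousWithinAt
  have h2 : Tendsto (fun p : ℝ × R12 => iteratedFDeriv ℝ j (ev h wt (u p.1 - u t)) p.2)
      (𝓝[J ×ˢ univ] (t, y)) (𝓝 0) := by
    refine squeeze_zero_norm (fun p => hb _ _) ?_
    have h3 : ContinuousWithinAt (fun p : ℝ × R12 => u p.1) (J ×ˢ univ) (t, y) :=
      ContinuousWithinAt.comp (f := fun p : ℝ × R12 => p.1) (hu t ht)
        continuous_fst.continuousWithinAt (fun p hp => hp.1)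
    have h4 : Tendsto (fun p : ℝ × R12 => C * ‖u p.1 - u t‖) (𝓝[J ×ˢ univ] (t, y))
        (𝓝 (C * ‖u t - u t‖)) := (h3.tendsto.sub_const _).norm.const_mul C
    simpa using h4
  have h5 := h2.add h1.tendsto
  rw [zero_add] at h5
  refine h5.congr fun p => ?_
  rw [ev_sub h hw, iteratedFDeriv_sub_apply ((contDiff_ev h hw _).of_le hj).contDiffAt
    ((contDiff_ev h hw _).of_le hj).contDiffAt, sub_add_cancel]

theorem localStmt : LocalStmt := by
  intro n h B hh
  obtain ⟨C, hC, hF⟩ := fourier h hh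
  set R : ℝ := |C * B| + 2 with hR
  have hR1 : 1 ≤ R := by have := abs_nonneg (C * B); linarith
  have hR0 : 0 ≤ R := by linarith
  have hL : 0 < R ^ (2 * n + 1) := by positivity
  refine ⟨(R ^ (2 * n + 1))⁻¹, inv_pos.2 hL, fun w₀ hw₀ hP hB => ?_⟩
  obtain ⟨a, ha, hs, hsum⟩ := hF w₀ B hw₀ hP hB
  obtain ⟨wt, hw, hws, hwle⟩ := exists_wt a hs
  obtain ⟨N, hN, hNb⟩ := exists_NL h hw n
  obtain ⟨G, hG, hGn, hGc⟩ := exists_G h
  have hnorm : ∀ ξ, ‖(wt ξ : ℂ) * a ξ‖ = wt ξ * ‖a ξ‖ := fun ξ => by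
    rw [norm_mul, Complex.norm_real, Real.norm_of_nonneg (hw.pos ξ).le]
  let b₀ : E := ⟨fun ξ => (wt ξ : ℂ) * a ξ, mem_of_summable (by simpa only [hnorm] using hws)⟩
  have hb₀ : ∀ ξ, b₀ ξ = (wt ξ : ℂ) * a ξ := fun _ => rfl
  have hb₀n : ‖b₀‖ ≤ R - 1 := by
    rw [norm_eq]
    simp only [hb₀, hnorm]
    have := le_abs_self (C * B)
    linarith
  have hGG : ∀ t b, G t (G (-t) b) = b := fun t b => by
    ext ξ
    rw [hG, hG, ← mul_assoc, ← Complex.exp_add]
    push_cast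
    ring_nf
    simp
  have hG0 : ∀ b, G 0 b = b := fun b => by
    ext ξ
    rw [hG]
    simp
  obtain ⟨hN1, hN2⟩ := hNb R hR0
  have hball : ∀ x ∈ closedBall b₀ ((1 : ℝ≥0) : ℝ), ‖x‖ ≤ R := fun x hx => by
    have h1 : ‖x - b₀‖ ≤ 1 := by simpa [dist_eq_norm] using hx
    have h2 := norm_add_le (x - b₀) b₀
    rw [sub_add_cancel] at h2
    linarith
  set T : ℝ := (R ^ (2 * n + 1))⁻¹ with hT
  have hT0 : 0 ≤ T := (inv_pos.2 hL).le
  let f : ℝ → E → E := fun t x => (-Complex.I) • G (-t) (N (G t x))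
  have hfn : ∀ t x x', ‖f t x - f t x'‖ = ‖N (G t x) - N (G t x')‖ := fun t x x' => by
    simp only [f]
    rw [← smul_sub, ← map_sub, norm_smul, hGn]
    simp
  have hK : 0 ≤ (2 * (n : ℝ) + 1) * R ^ (2 * n) := by positivity
  have hPL : IsPicardLindelof f (tmin := 0) (tmax := T) ⟨0, left_mem_Icc.2 hT0⟩ b₀ 1 0
      (NNReal.mk (R ^ (2 * n + 1)) hL.le) (NNReal.mk ((2 * (n : ℝ) + 1) * R ^ (2 * n)) hK) := by
    refine ⟨fun t _ => LipschitzOnWith.of_dist_le_mul fun x hx x' hx' => ?_, fun x hx => ?_,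
      fun t _ x hx => ?_, ?_⟩
    · rw [dist_eq_norm, dist_eq_norm, hfn]
      refine (hN2 _ _ (by rw [hGn]; exact hball x hx) (by rw [hGn]; exact hball x' hx')).trans ?_
      rw [← map_sub, hGn]
      rfl
    · refine Continuous.continuousOn ?_
      have h1 : Continuous fun t => N (G t x) := by
        refine continuous_iff_continuousAt.2 fun t => ?_
        rw [ContinuousAt, tendsto_iff_norm_sub_tendsto_zero]
        refine squeeze_zero (fun _ => norm_nonneg _)
          (fun s => hN2 _ _ (by rw [hGn]; exact hball x hx) (by rw [hGn]; exact hball x hx)) ?_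
        have h4 := (((hGc x).tendsto t).sub_const (G t x)).norm.const_mul
          ((2 * (n : ℝ) + 1) * R ^ (2 * n))
        simpa using h4
      suffices h6 : Continuous fun t => G (-t) (N (G t x)) from h6.const_smul (-Complex.I)
      refine continuous_iff_continuousAt.2 fun t => ?_
      have h2 : Tendsto (fun s => G (-s) (N (G s x) - N (G t x))) (𝓝 t) (𝓝 0) := by
        refine squeeze_zero_norm (fun s => (hGn _ _).le) ?_
        simpa using ((h1.tendsto t).sub_const (N (G t x))).norm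
      have h3 := h2.add (((hGc (N (G t x))).comp continuous_neg).tendsto t)
      rw [zero_add] at h3
      refine h3.congr fun s => ?_
      simp
    · simp only [f]
      rw [norm_smul, hGn]
      simpa using hN1 _ (by rw [hGn]; exact hball x hx)
    · simp only [NNReal.coe_mk, sub_zero, sub_self, NNReal.coe_one, NNReal.coe_zero]
      rw [max_eq_left hT0, hT, mul_inv_cancel₀ hL.ne']
  obtain ⟨v, hv0, hv⟩ := hPL.exists_eq_forall_mem_Icc_hasDerivWithinAt₀
  have hv0' : v 0 = b₀ := hv0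
  have hvc : ContinuousOn v (Icc 0 T) := fun t ht => (hv t ht).continuousWithinAt
  have huc : ContinuousOn (fun t => G t (v t)) (Icc 0 T) := by
    intro t ht
    have h2 : Tendsto (fun s => G s (v s - v t)) (𝓝[Icc 0 T] t) (𝓝 0) := by
      refine squeeze_zero_norm (fun s => (hGn _ _).le) ?_
      simpa using ((hvc t ht).tendsto.sub_const (v t)).norm
    have h3 := h2.add (((hGc (v t)).tendsto t).mono_left nhdsWithin_le_nhds)
    rw [zero_add] at h3
    refine h3.congr fun s => ?_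
    simp
  refine ⟨fun t => ev h wt (G t (v t)), ⟨fun k => ck_ev h hw huc k, fun t _ => per_ev h wt _,
    fun t ht y => ?_⟩, ?_⟩
  · obtain ⟨Λ, hΛ, hΛn⟩ := exists_evL h hw y
    have key := hasDerivWithinAt_apply (fun s => Λ.comp (G s))
      (fun s b => (hΛn _).trans (hGn s b).le) (fun b => Λ.continuous.comp (hGc b))
      (v := v) (t := t) (by simpa [hΛ] using hasDerivAt_ev_G h hw G hG (v t) y t) (hv t ht)
    simp only [ContinuousLinearMap.comp_apply, f, map_smul, hGG, hΛ, hN] at key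
    convert key using 1
    rw [lap_ev h hw, smul_eq_mul]
    push_cast
    ring_nf
  · funext y
    simp only [hG0, hv0', ev, hb₀]
    rw [← (ha y).tsum_eq]
    refine tsum_congr fun ξ => ?_
    have : (wt ξ : ℂ) ≠ 0 := by exact_mod_cast (hw.pos ξ).ne'
    field_simp

end Crest.Agent.R086.L
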