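import Crest.Agent.R086.Defs

/-!
# Row 86, part L (local theory): definitions

`E = ℓ¹(ℤ¹²)`; an element `b` stands for the function `ev h ω b = ∑ b ξ / ω ξ · e^{i h ξ·y}`, where `ω`
is a submultiplicative weight growing faster than every polynomial.
-/

set_option autoImplicit false

open Crest.AnalysisR.PDE.NLS

namespace Crest.Agent.R086.L

noncomputable section

abbrev Z12 : Type := Fin 12 → ℤ
abbrev E : Type := lp (fun _ : Z12 => ℂ) 1

/-- ℓ¹ length of a frequency -/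
def nz (ξ : Z12) : ℝ := ∑ i, |(ξ i : ℝ)|
/-- squared Euclidean length of a frequency -/
def sq (ξ : Z12) : ℝ := ∑ i, (ξ i : ℝ) ^ 2
/-- the character `e^{i h ξ·y}` -/
def ch (h : ℝ) (ξ : Z12) (y : R12) : ℂ :=
  Complex.exp (Complex.I * ((h * ∑ i, (ξ i : ℝ) * y i : ℝ) : ℂ))

/-- admissible weights -/
structure Wt (ω : Z12 → ℝ) : Prop where
  one_le : ∀ ξ, 1 ≤ ω ξ
  neg : ∀ ξ, ω (-ξ) = ω ξ
  add_le : ∀ ξ η, ω (ξ + η) ≤ ω ξ * ω η
  grow : ∀ s : ℕ, ∃ C : ℝ, 0 ≤ C ∧ ∀ ξ, (1 + nz ξ) ^ s ≤ C * ω ξ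

/-- synthesis -/
def ev (h : ℝ) (ω : Z12 → ℝ) (b : E) (y : R12) : ℂ := ∑' ξ, b ξ / (ω ξ : ℂ) * ch h ξ y

theorem nz_nonneg (ξ : Z12) : 0 ≤ nz ξ := Finset.sum_nonneg fun _ _ => abs_nonneg _

theorem nz_neg (ξ : Z12) : nz (-ξ) = nz ξ := by simp [nz]

theorem nz_add_le (ξ η : Z12) : nz (ξ + η) ≤ nz ξ + nz η := by
  simp only [nz, ← Finset.sum_add_distrib]
  exact Finset.sum_le_sum fun i _ => by simpa using abs_add_le (ξ i : ℝ) (η i)

theorem abs_le_nz (ξ : Z12) (i : Fin 12) : |(ξ i : ℝ)| ≤ nz ξ :=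
  Finset.single_le_sum (f := fun i => |(ξ i : ℝ)|) (fun _ _ => abs_nonneg _) (Finset.mem_univ i)

theorem sq_nonneg' (ξ : Z12) : 0 ≤ sq ξ := Finset.sum_nonneg fun _ _ => sq_nonneg _

theorem sq_le (ξ : Z12) : sq ξ ≤ (1 + nz ξ) ^ 2 := by
  have h1 : sq ξ ≤ nz ξ ^ 2 := by
    calc sq ξ = ∑ i, |(ξ i : ℝ)| * |(ξ i : ℝ)| := by
          simp only [sq, abs_mul_abs_self]; exact Finset.sum_congr rfl fun i _ => by ring
      _ ≤ ∑ i, |(ξ i : ℝ)| * nz ξ :=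
          Finset.sum_le_sum fun i _ => mul_le_mul_of_nonneg_left (abs_le_nz ξ i) (abs_nonneg _)
      _ = nz ξ ^ 2 := by rw [← Finset.sum_mul]; unfold nz; ring
  nlinarith [nz_nonneg ξ]

theorem norm_ch (h : ℝ) (ξ : Z12) (y : R12) : ‖ch h ξ y‖ = 1 := by
  unfold ch; rw [mul_comm]; exact Complex.norm_exp_ofReal_mul_I _

theorem ch_add (h : ℝ) (ξ η : Z12) (y : R12) : ch h (ξ + η) y = ch h ξ y * ch h η y := by
  unfold ch
  rw [← Complex.exp_add]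
  congr 1
  simp only [Pi.add_apply, Int.cast_add, add_mul, Finset.sum_add_distrib]
  push_cast
  ring

theorem ch_add_right (h : ℝ) (ξ : Z12) (y v : R12) : ch h ξ (y + v) = ch h ξ y * ch h ξ v := by
  unfold ch
  rw [← Complex.exp_add]
  congr 1
  simp only [PiLp.add_apply, mul_add, Finset.sum_add_distrib]
  push_cast
  ring

theorem ch_neg (h : ℝ) (ξ : Z12) (y : R12) : ch h (-ξ) y = (starRingEnd ℂ) (ch h ξ y) := by
  unfold ch
  rw [← Complex.exp_conj]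
  congr 1
  simp only [Pi.neg_apply, Int.cast_neg, neg_mul, Finset.sum_neg_distrib, map_mul, Complex.conj_I,
    Complex.conj_ofReal]
  push_cast
  ring

theorem summable_norm (b : E) : Summable fun ξ => ‖b ξ‖ := by
  simpa using (lp.memℓp b).summable (by norm_num)

theorem norm_eq (b : E) : ‖b‖ = ∑' ξ, ‖b ξ‖ := by
  simpa using lp.norm_eq_tsum_rpow (p := 1) (by norm_num) b

theorem mem_of_summable {a : Z12 → ℂ} (ha : Summable fun ξ => ‖a ξ‖) :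
    Memℓp a 1 := by
  refine memℓp_gen ?_
  simpa using ha

theorem Wt.pos {ω : Z12 → ℝ} (hω : Wt ω) (ξ : Z12) : 0 < ω ξ := lt_of_lt_of_le one_pos (hω.one_le ξ)

theorem Wt.norm_term_le {ω : Z12 → ℝ} (hω : Wt ω) (h : ℝ) (b : E) (ξ : Z12) (y : R12) :
    ‖b ξ / (ω ξ : ℂ) * ch h ξ y‖ ≤ ‖b ξ‖ := by
  rw [norm_mul, norm_ch, mul_one, norm_div, Complex.norm_real, Real.norm_of_nonneg (hω.pos ξ).le]
  exact div_le_self (norm_nonneg _) (hω.one_le ξ)

theorem Wt.summable_term {ω : Z12 → ℝ} (hω : Wt ω) (h : ℝ) (b : E) (y : R12) :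
    Summable fun ξ => ‖b ξ / (ω ξ : ℂ) * ch h ξ y‖ :=
  Summable.of_nonneg_of_le (fun _ => norm_nonneg _) (fun ξ => hω.norm_term_le h b ξ y)
    (summable_norm b)

end

end Crest.Agent.R086.L
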