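import Crest.Agent.R086.L.Defs

/-!
# Row 86, part L: Fourier coefficients of a continuous periodic function (abstract properties)
-/

set_option autoImplicit false

open Crest.AnalysisR.PDE.NLS
open scoped ContDiff

namespace Crest.Agent.R086.L

open MeasureTheory UnitAddTorus

/-- the covering map of the torus -/
noncomputable def four1P (h : ℝ) (y : R12) : UnitAddTorus (Fin 12) :=
  fun i => ((h / (2 * Real.pi) * y i : ℝ) : UnitAddCircle)

theorem four1_quot {h : ℝ} (hh : 0 < h) : IsOpenQuotientMap (four1P h) := by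
  have hc : h / (2 * Real.pi) ≠ 0 := by positivity
  exact (IsOpenQuotientMap.piMap fun _ : Fin 12 => QuotientAddGroup.isOpenQuotientMap_mk
    (N := AddSubgroup.zmultiples (1 : ℝ))).comp
    ((EuclideanSpace.equiv (Fin 12) ℝ).toHomeomorph.trans
      (Homeomorph.smulOfNeZero _ hc)).isOpenQuotientMap

theorem four1_add (h : ℝ) (y v : R12) : four1P h (y + v) = four1P h y + four1P h v := by
  funext i
  simp only [four1P, PiLp.add_apply, mul_add, AddCircle.coe_add, Pi.add_apply]

theorem four1_factor {h : ℝ} (hh : 0 < h) {F : R12 → ℂ} (hF : Per h F) {y y' : R12}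
    (e : four1P h y = four1P h y') : F y = F y' := by
  have h1 : ∀ i, ∃ k : ℤ, y' i = y i + k * (2 * Real.pi / h) := fun i => by
    obtain ⟨k, hk⟩ := AddSubgroup.mem_zmultiples_iff.mp
      (QuotientAddGroup.eq.mp (congrFun e i))
    refine ⟨k, ?_⟩
    rw [zsmul_eq_mul, mul_one] at hk
    rw [hk]
    have := Real.pi_pos
    field_simp
    ring
  choose k hk using h1
  have h2 : Function.Periodic F (∑ i, k i • EuclideanSpace.single i (2 * Real.pi / h)) :=
    Finset.sum_induction _ (Function.Periodic F) (fun a b ha hb => ha.add_period hb)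
      (fun x => by rw [add_zero])
      fun i _ => Function.Periodic.zsmul (fun x => hF hh.ne' x i) (k i)
  rw [← h2 y]
  congr 1
  ext i
  simp [hk i, Pi.single_apply]

theorem four1_ch (h : ℝ) (ξ : Z12) (y : R12) :
    mFourier ξ (four1P h y) = ch h ξ y := by
  simp only [mFourier, ContinuousMap.coe_mk, four1P, fourier_coe_apply, ch]
  rw [← Complex.exp_sum]
  congr 1
  push_cast
  rw [Finset.mul_sum, Finset.mul_sum]
  refine Finset.sum_congr rfl fun i _ => ?_
  have : (Real.pi : ℂ) ≠ 0 := by exact_mod_cast Real.pi_pos.ne'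
  field_simp

theorem four1_mF_add (ξ : Z12) (t a : UnitAddTorus (Fin 12)) :
    mFourier ξ (t + a) = mFourier ξ t * mFourier ξ a := by
  simp only [mFourier, ContinuousMap.coe_mk, Pi.add_apply, fourier_apply, smul_add,
    AddCircle.toCircle_add, Circle.coe_mul, Finset.prod_mul_distrib]

theorem four1_coeff (g : UnitAddTorus (Fin 12) → ℂ) (ξ : Z12) : mFourierCoeff g ξ =
    ∫ t, mFourier (-ξ) t * g t ∂(Measure.pi fun _ => AddCircle.haarAddCircle) := rfl

/-- A coefficient functional `fc` with the four properties used later.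
Recipe: for `F` continuous and periodic let `F̃ : C(UnitAddTorus (Fin 12), ℂ)` with
`F̃ (fun i => ((h / (2π)) * y i : ℝ)) = F y` (lift along the open quotient map
`(Fin 12 → ℝ) → UnitAddTorus (Fin 12)`), `fc F ξ = UnitAddTorus.mFourierCoeff F̃ ξ`
(any value if `F` is not continuous periodic); translation invariance of Haar measure
(`integral_add_right_eq_self`) gives `shift`; `hasSum_mFourier_series_apply_of_summable` gives `inv`;
`mFourier ξ (fun i => ((h / (2π)) * y i : ℝ)) = ch h ξ y`. -/
theorem exists_fc (h : ℝ) (hh : 0 < h) :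
    ∃ fc : (R12 → ℂ) → Z12 → ℂ,
      (∀ (F : R12 → ℂ) (B : ℝ), Continuous F → Per h F → (∀ y, ‖F y‖ ≤ B) → ∀ ξ, ‖fc F ξ‖ ≤ B) ∧
      (∀ (F : R12 → ℂ) (v : R12), Continuous F → Per h F → ∀ ξ,
        fc (fun y => F (y + v) - F y) ξ = (ch h ξ v - 1) * fc F ξ) ∧
      (∀ F : R12 → ℂ, Continuous F → Per h F → Summable (fc F) → ∀ y,
        HasSum (fun ξ => fc F ξ * ch h ξ y) (F y)) := by
  obtain ⟨σ, hσ⟩ := (four1_quot hh).surjective.hasRightInverse
  have hG : ∀ F : R12 → ℂ, Per h F → ∀ y, F (σ (four1P h y)) = F y := fun F hF y =>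
    four1_factor hh hF (hσ _)
  have hc : ∀ F : R12 → ℂ, Continuous F → Per h F → Continuous fun t => F (σ t) := fun F c hF =>
    (four1_quot hh).continuous_comp_iff.mp (by
      rw [show (fun t => F (σ t)) ∘ four1P h = F from funext (hG F hF)]; exact c)
  have hi : ∀ F : UnitAddTorus (Fin 12) → ℂ, Continuous F →
      Integrable F (Measure.pi fun _ => AddCircle.haarAddCircle) := fun F c =>
    c.integrable_of_hasCompactSupport (HasCompactSupport.of_compactSpace F)
  refine ⟨fun F ξ => mFourierCoeff (fun t => F (σ t)) ξ, fun F B c hF hB ξ => ?_,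
    fun F v c hF ξ => ?_, fun F c hF hs y => ?_⟩
  · dsimp only
    rw [four1_coeff]
    refine (norm_integral_le_of_norm_le_const (C := B)
      (Filter.Eventually.of_forall fun t => ?_)).trans (by simp)
    rw [norm_mul]
    have := (mFourier (-ξ)).norm_coe_le_norm t
    rw [mFourier_norm] at this
    exact (mul_le_of_le_one_left (norm_nonneg _) this).trans (hB _)
  · dsimp only
    have e : ∀ t, F (σ t + v) = F (σ (t + four1P h v)) := fun t => by
      rw [← hG F hF (σ t + v), four1_add, hσ]
    have c1 := (mFourier (-ξ)).continuous.mul (hc F c hF)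
    rw [four1_coeff, four1_coeff, sub_mul, one_mul, ← integral_const_mul,
      ← integral_add_right_eq_self (fun t => ch h ξ v * (mFourier (-ξ) t * F (σ t))) (four1P h v),
      ← integral_sub (hi (fun t => ch h ξ v * (mFourier (-ξ) (t + four1P h v) *
        F (σ (t + four1P h v)))) (continuous_const.mul (c1.comp (continuous_add_const _))))
        (hi (fun t => mFourier (-ξ) t * F (σ t)) c1)]
    congr 1
    funext t
    have e2 : mFourier ξ (four1P h v) * mFourier (-ξ) (four1P h v) = 1 := by
      rw [← mFourier_add, add_neg_cancel, mFourier_zero]; rfl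
    rw [e, four1_mF_add, ← four1_ch h]
    linear_combination (-(mFourier (-ξ) t * F (σ (t + four1P h v)))) * e2
  · have := hasSum_mFourier_series_apply_of_summable (f := ⟨_, hc F c hF⟩) hs (four1P h y)
    simpa only [ContinuousMap.coe_mk, hG F hF, four1_ch h, smul_eq_mul] using this

end Crest.Agent.R086.L
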